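import Vale.Agent.P329.H559.C2.Defs
import Vale.Agent.P329.H559.KV

/-! Pair sums of functions of the window and of the clock, from pair counts of blocks. -/

set_option linter.all false

namespace Vale.Agent.P329.H672.C2

open Vale.Agent.P329 Vale.Agent.P329.H559 Vale.Agent.P329.H559.C2

section alg

variable {α : Type} {m N i₀ : ℕ}

/-- `f'` computes `f` inside the blocks -/
def Lv (N i₀ : ℕ) (f f' : List α → α → ZMod m) : Prop :=
  ∀ K' D' b, K'.length < N → N ∣ D'.length + i₀ → f (K' ++ D') b = f' K' b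

theorem SS_app {f f' : List α → α → ZMod m} (hf : Lv N i₀ f f') {D : List α}
    (hD : N ∣ D.length + i₀) (K : List α) (hK : K.length ≤ N) :
    SS f (K ++ D) = SS f D + SS f' K := by
  induction K with
  | nil => rw [List.nil_append, SS, add_zero]
  | cons b K ih =>
    rw [List.length_cons] at hK
    rw [List.cons_append, SS, SS, ih (by omega), hf K D b (by omega) hD]
    ring

theorem PP_app {f f' g g' : List α → α → ZMod m} (hf : Lv N i₀ f f') (hg : Lv N i₀ g g')
    {D : List α} (hD : N ∣ D.length + i₀) (K : List α) (hK : K.length ≤ N) :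
    PP f g (K ++ D) = PP f g D + SS f D * SS g' K + PP f' g' K := by
  induction K with
  | nil => rw [List.nil_append, PP, SS, mul_zero, add_zero, add_zero]
  | cons b K ih =>
    rw [List.length_cons] at hK
    rw [List.cons_append, PP, ih (by omega), SS_app hf hD K (by omega),
      hg K D b (by omega) hD, PP, SS]
    ring

/-- sums over blocks -/
def SB {h : ℕ} (g' : List α → α → ZMod m) : List (Blk α h) → ZMod m
  | [] => 0
  | B :: Bs => SS g' B.1 + SB g' Bs

/-- pair sums over blocks -/
def PB {h : ℕ} (f' g' : List α → α → ZMod m) : List (Blk α h) → ZMod m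
  | [] => 0
  | B :: Bs => PP f' g' B.1 + SS f' B.1 * SB g' Bs + PB f' g' Bs

theorem SS_blk {f f' : List α → α → ZMod m} (hf : Lv N i₀ f f') (w : List α) :
    ∀ (K : Par α N) (D : List α), N ∣ D.length + i₀ →
    SS f (w.reverse ++ (K.1 ++ D)) = SS f D + SB f' (ps K w) + SS f' (rm K w).1 := by
  induction w with
  | nil =>
    intro K D hD
    rw [List.reverse_nil, List.nil_append, SS_app hf hD K.1 K.2.le]
    show _ = SS f D + 0 + SS f' K.1
    ring
  | cons b w ih =>
    intro K D hD
    have e1 : (b :: w).reverse ++ (K.1 ++ D) = w.reverse ++ ((b :: K.1) ++ D) := by simp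
    rw [e1]
    have h4 : rm K (b :: w) = rm (nxt K b) w := rfl
    by_cases h : K.1.length + 1 < N
    · have h2 : nxt K b = ⟨b :: K.1, h⟩ := dif_pos h
      have h3 : ps K (b :: w) = ps (nxt K b) w := dif_neg (by omega)
      have h8 := ih (nxt K b) D hD
      rw [h3, h4, ← h8, h2]
    · have h2 : nxt K b = p0 K := dif_neg h
      have hK := K.2
      have h5 : K.1.length + 1 = N := by omega
      have h3 : ps K (b :: w) = ⟨b :: K.1, h5⟩ :: ps (nxt K b) w := dif_pos h5
      have h6 : N ∣ ((b :: K.1) ++ D).length + i₀ := by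
        rw [List.length_append, List.length_cons, h5, Nat.add_assoc]
        exact dvd_add (dvd_refl N) hD
      have h8 := ih (nxt K b) ((b :: K.1) ++ D) h6
      rw [h2] at h8
      have h7 : (p0 K : Par α N).1 ++ ((b :: K.1) ++ D) = (b :: K.1) ++ D := rfl
      rw [h7] at h8
      have h9 : (b :: K.1).length ≤ N := by rw [List.length_cons, h5]
      rw [h8, h3, h4, h2, SB, SS_app hf hD (b :: K.1) h9]
      ring

theorem PP_blk {f f' g g' : List α → α → ZMod m} (hf : Lv N i₀ f f') (hg : Lv N i₀ g g')
    (w : List α) : ∀ (K : Par α N) (D : List α), N ∣ D.length + i₀ →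
    PP f g (w.reverse ++ (K.1 ++ D)) = PP f g D +
      SS f D * (SB g' (ps K w) + SS g' (rm K w).1) + PB f' g' (ps K w) +
      SB f' (ps K w) * SS g' (rm K w).1 + PP f' g' (rm K w).1 := by
  induction w with
  | nil =>
    intro K D hD
    rw [List.reverse_nil, List.nil_append, PP_app hf hg hD K.1 K.2.le]
    show _ = PP f g D + SS f D * (0 + SS g' K.1) + 0 + 0 * SS g' K.1 + PP f' g' K.1
    ring
  | cons b w ih =>
    intro K D hD
    have e1 : (b :: w).reverse ++ (K.1 ++ D) = w.reverse ++ ((b :: K.1) ++ D) := by simp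
    rw [e1]
    have h4 : rm K (b :: w) = rm (nxt K b) w := rfl
    by_cases h : K.1.length + 1 < N
    · have h2 : nxt K b = ⟨b :: K.1, h⟩ := dif_pos h
      have h3 : ps K (b :: w) = ps (nxt K b) w := dif_neg (by omega)
      have h8 := ih (nxt K b) D hD
      rw [h3, h4, ← h8, h2]
    · have h2 : nxt K b = p0 K := dif_neg h
      have hK := K.2
      have h5 : K.1.length + 1 = N := by omega
      have h3 : ps K (b :: w) = ⟨b :: K.1, h5⟩ :: ps (nxt K b) w := dif_pos h5
      have h6 : N ∣ ((b :: K.1) ++ D).length + i₀ := by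
        rw [List.length_append, List.length_cons, h5, Nat.add_assoc]
        exact dvd_add (dvd_refl N) hD
      have h8 := ih (nxt K b) ((b :: K.1) ++ D) h6
      rw [h2] at h8
      have h7 : (p0 K : Par α N).1 ++ ((b :: K.1) ++ D) = (b :: K.1) ++ D := rfl
      rw [h7] at h8
      have h9 : (b :: K.1).length ≤ N := by rw [List.length_cons, h5]
      rw [h8, h3, h4, h2, SB, SB, PB, SS_app hf hD (b :: K.1) h9,
        PP_app hf hg hD (b :: K.1) h9]
      ring

theorem pcA_eq {A : Type} (a b : A) (w : List A) : ∀ k : ℤ,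
    pcA a b k w = pcA a b 0 w + k * ct b w := by
  classical
  induction w with
  | nil => intro k; rw [pcA, pcA, ct, mul_zero, add_zero]
  | cons x w ih =>
    intro k
    rw [pcA, pcA, ct, ih (k + _), ih (0 + _)]
    by_cases h : x = b
    · rw [if_pos h, if_pos h, if_pos h]; ring
    · rw [if_neg h, if_neg h, if_neg h]; ring

open Classical in
theorem pc_cons {A : Type} (a b x : A) (w : List A) :
    pc a b (x :: w) = pc a b w + (if x = a then 1 else 0) * ct b w := by
  rw [pc, pcA, pcA_eq a b w (0 + _), ite_self, pc]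
  ring

theorem SB_eq {h : ℕ} [Fintype (Blk α h)] (g' : List α → α → ZMod m) (Bs : List (Blk α h)) :
    SB g' Bs = ∑ β, ((ct β Bs : ℤ) : ZMod m) * SS g' β.1 := by
  classical
  induction Bs with
  | nil =>
    symm
    refine Finset.sum_eq_zero fun β _ => ?_
    rw [ct, Int.cast_zero, zero_mul]
  | cons B Bs ih =>
    have h1 : SS g' B.1 = ∑ β : Blk α h, (if B = β then 1 else 0) * SS g' β.1 := by
      rw [Finset.sum_eq_single B]
      · rw [if_pos rfl, one_mul]
      · intro β _ hβ
        rw [if_neg (Ne.symm hβ), zero_mul]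
      · intro h; exact absurd (Finset.mem_univ _) h
    rw [SB, ih, h1, ← Finset.sum_add_distrib]
    refine Finset.sum_congr rfl fun β _ => ?_
    rw [ct]
    by_cases h : B = β
    · rw [if_pos h, if_pos h]; push_cast; ring
    · rw [if_neg h, if_neg h]; push_cast; ring

theorem PB_eq {h : ℕ} [Fintype (Blk α h)] (f' g' : List α → α → ZMod m)
    (Bs : List (Blk α h)) :
    PB f' g' Bs = ∑ β, ((ct β Bs : ℤ) : ZMod m) * PP f' g' β.1 +
      ∑ γ, ∑ β, ((pc γ β Bs : ℤ) : ZMod m) * (SS f' γ.1 * SS g' β.1) := by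
  classical
  induction Bs with
  | nil =>
    symm
    rw [PB, Finset.sum_eq_zero, Finset.sum_eq_zero, add_zero]
    · intro γ _
      refine Finset.sum_eq_zero fun β _ => ?_
      rw [pc, pcA, Int.cast_zero, zero_mul]
    · intro β _
      rw [ct, Int.cast_zero, zero_mul]
  | cons B Bs ih =>
    have h1 : PP f' g' B.1 = ∑ β : Blk α h, (if B = β then 1 else 0) * PP f' g' β.1 := by
      rw [Finset.sum_eq_single B]
      · rw [if_pos rfl, one_mul]
      · intro β _ hβ
        rw [if_neg (Ne.symm hβ), zero_mul]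
      · intro h; exact absurd (Finset.mem_univ _) h
    have h2 : SS f' B.1 * SB g' Bs = ∑ γ : Blk α h, ∑ β : Blk α h,
        ((if B = γ then 1 else 0) * ((ct β Bs : ℤ) : ZMod m)) * (SS f' γ.1 * SS g' β.1) := by
      rw [Finset.sum_eq_single B]
      · rw [SB_eq, Finset.mul_sum]
        refine Finset.sum_congr rfl fun β _ => ?_
        rw [if_pos rfl]; ring
      · intro γ _ hγ
        refine Finset.sum_eq_zero fun β _ => ?_
        rw [if_neg (Ne.symm hγ), zero_mul, zero_mul]
      · intro h; exact absurd (Finset.mem_univ _) h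
    have h3 : ∑ β : Blk α h, ((ct β (B :: Bs) : ℤ) : ZMod m) * PP f' g' β.1 =
        PP f' g' B.1 + ∑ β : Blk α h, ((ct β Bs : ℤ) : ZMod m) * PP f' g' β.1 := by
      rw [h1, ← Finset.sum_add_distrib]
      refine Finset.sum_congr rfl fun β _ => ?_
      rw [ct]
      by_cases h : B = β
      · rw [if_pos h, if_pos h]; push_cast; ring
      · rw [if_neg h, if_neg h]; push_cast; ring
    have h4 : ∑ γ : Blk α h, ∑ β : Blk α h, ((pc γ β (B :: Bs) : ℤ) : ZMod m) *
        (SS f' γ.1 * SS g' β.1) = SS f' B.1 * SB g' Bs + ∑ γ : Blk α h, ∑ β : Blk α h,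
        ((pc γ β Bs : ℤ) : ZMod m) * (SS f' γ.1 * SS g' β.1) := by
      rw [h2, ← Finset.sum_add_distrib]
      refine Finset.sum_congr rfl fun γ _ => ?_
      rw [← Finset.sum_add_distrib]
      refine Finset.sum_congr rfl fun β _ => ?_
      rw [pc_cons]
      by_cases h : B = γ
      · rw [if_pos h, if_pos h]; push_cast; ring
      · rw [if_neg h, if_neg h]; push_cast; ring
    rw [PB, ih, h3, h4]
    ring

/-- the open block in terms of the word -/
theorem rm_eq (w : List α) : ∀ K : Par α N,
    (rm K w).1 = (w.reverse ++ K.1).take ((w.length + K.1.length) % N) := by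
  induction w with
  | nil =>
    intro K
    rw [List.reverse_nil, List.nil_append, List.length_nil, Nat.zero_add,
      Nat.mod_eq_of_lt K.2, List.take_length]
    rfl
  | cons b w ih =>
    intro K
    have h4 : rm K (b :: w) = rm (nxt K b) w := rfl
    have e1 : (b :: w).reverse ++ K.1 = w.reverse ++ (b :: K.1) := by simp
    rw [h4, ih, e1]
    by_cases h : K.1.length + 1 < N
    · have h2 : nxt K b = ⟨b :: K.1, h⟩ := dif_pos h
      rw [h2]
      show List.take ((w.length + (b :: K.1).length) % N) (w.reverse ++ (b :: K.1)) = _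
      congr 2
      rw [List.length_cons, List.length_cons]; omega
    · have h2 : nxt K b = p0 K := dif_neg h
      have hK := K.2
      have h5 : K.1.length + 1 = N := by omega
      rw [h2]
      show List.take ((w.length + 0) % N) (w.reverse ++ []) = _
      have h6 : ((b :: w).length + K.1.length) % N = w.length % N := by
        rw [List.length_cons, show w.length + 1 + K.1.length = w.length + N by omega,
          Nat.add_mod_right]
      have h7 : w.length % N ≤ w.reverse.length := by
        rw [List.length_reverse]; exact Nat.mod_le _ _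
      rw [h6, Nat.add_zero, List.take_append_of_le_length h7,
        List.take_append_of_le_length h7]

end alg

section known

variable {α : Type} [Finite α] {m : ℕ} [NeZero m] {q : ℕ}

theorem take_app {X Y K : List α} {n t : ℕ} (h : X.take n = Y.take n) (ht : t ≤ n) :
    (X ++ K).take t = (Y ++ K).take t := by
  by_cases h1 : n ≤ X.length
  · have h2 : n ≤ Y.length := by
      have h3 := congrArg List.length h
      rw [List.length_take, List.length_take, Nat.min_eq_left h1] at h3
      omega
    rw [List.take_append_of_le_length (ht.trans h1), List.take_append_of_le_length (ht.trans h2)]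
    have h3 := congrArg (List.take t) h
    rwa [List.take_take, List.take_take, Nat.min_eq_left ht] at h3
  · have h2 : X.take n = X := List.take_of_length_le (by omega)
    have h3 : Y.length < n := by
      have h4 := congrArg List.length h
      rw [List.length_take, List.length_take] at h4
      omega
    rw [h2, List.take_of_length_le h3.le] at h
    rw [h]

theorem rm_known (hL : ∀ q, H434.LocK (2 ^ q)) (K : Par α (2 ^ q)) : Kn (rm K) := by
  intro K'
  have h1 := hL q α (2 ^ q)
    (fun X => (X ++ K.1).take ((X.length + K.1.length) % 2 ^ q) = K'.1) (by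
      intro X Y h1 h2
      have h3 : (X.length + K.1.length) % 2 ^ q = (Y.length + K.1.length) % 2 ^ q :=
        Nat.ModEq.add_right _ h1
      rw [h3, take_app h2 (Nat.mod_lt _ (pow_pos (by norm_num) _)).le])
  refine Eq.mp (congrArg (SH 1) ?_) h1
  ext w
  rw [Set.mem_ofPred_eq, Set.mem_ofPred_eq, List.length_reverse, ← rm_eq]
  exact ⟨fun h => Subtype.ext h, fun h => congrArg Subtype.val h⟩

theorem kn_one {B : Type} (G : List α → B) (h : ∀ b : α, Kn fun w => G (b :: w)) : Kn G := by
  intro v
  have h1 : SH 1 ((⋃ _ : G [] = v, ({[]} : Set (List α))) ∪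
      ⋃ b : α, P329.cat {[b]} {w | G (b :: w) = v}) :=
    (SH.iUnion_prop fun _ => SH.eps).union
      (SH.iUnion fun b => (SH.single b).cat (h b v))
  refine Eq.mp (congrArg (SH 1) ?_) h1
  ext w
  rw [Set.mem_union, Set.mem_iUnion, Set.mem_iUnion, Set.mem_ofPred_eq]
  constructor
  · rintro (⟨h, hw⟩ | ⟨b, _, rfl, u, hu, rfl⟩)
    · rw [Set.mem_singleton_iff.1 hw]; exact h
    · exact hu
  · intro h
    cases w with
    | nil => exact Or.inl ⟨h, rfl⟩
    | cons b w => exact Or.inr ⟨b, [b], rfl, w, h, rfl⟩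

theorem kn_prefix {B : Type} (F : List α → B) (s : ℕ)
    (h : ∀ u : List α, u.length = s → Kn fun w => F (u ++ w)) : Kn F := by
  induction s with
  | zero => exact h [] rfl
  | succ s ih =>
    apply ih
    intro u hu
    apply kn_one
    intro b
    refine Eq.mp (congrArg Kn ?_) (h (u ++ [b]) (by rw [List.length_append, hu]; rfl))
    funext w
    rw [List.append_assoc]; rfl

theorem PPblk_known (hL : ∀ q, H434.LocK (2 ^ q))
    (hC : ∀ (q : ℕ) (α : Type) [Finite α] (K : Par α (2 ^ q)) (γ : Blk α (2 ^ q)),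
      KnZ fun w : List α => ct γ (ps K w))
    (h : PairStmt) {i₀ : ℕ} {f f' g g' : List α → α → ZMod m} (hf : Lv (2 ^ q) i₀ f f')
    (hg : Lv (2 ^ q) i₀ g g') (K : Par α (2 ^ q)) (D : List α) (hD : 2 ^ q ∣ D.length + i₀) :
    Kn fun w : List α => PP f g (w.reverse ++ (K.1 ++ D)) := by
  classical
  have := Fintype.ofFinite (Blk α (2 ^ q))
  have hm : 0 < m := Nat.pos_of_ne_zero (NeZero.ne m)
  have k1 : ∀ t : List α → α → ZMod m, Kn fun w : List α => SB t (ps K w) := by
    intro t
    refine Eq.mp (congrArg Kn ?_) (kn_sum Finset.univ fun (β : Blk α (2 ^ q)) _ =>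
      ((hC q α K β) m hm).comp fun x => x * SS t β.1)
    funext w
    exact (SB_eq t _).symm
  have k2 : Kn fun w : List α => PB f' g' (ps K w) := by
    have e1 := kn_sum Finset.univ fun (β : Blk α (2 ^ q)) _ =>
      ((hC q α K β) m hm).comp fun x => x * PP f' g' β.1
    have e2 := kn_sum Finset.univ fun (γ : Blk α (2 ^ q)) _ =>
      kn_sum Finset.univ fun (β : Blk α (2 ^ q)) _ =>
        ((h q α K γ β) m hm).comp fun x => x * (SS f' γ.1 * SS g' β.1)
    refine Eq.mp (congrArg Kn ?_) (e1.comp₂ e2 fun x y => x + y)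
    funext w
    exact (PB_eq f' g' _).symm
  have k3 := rm_known (α := α) hL K
  have k4 := (((k1 f').pair (k1 g')).pair (k2.pair k3)).comp fun t =>
    PP f g D + SS f D * (t.1.2 + SS g' t.2.2.1) + t.2.1 + t.1.1 * SS g' t.2.2.1 +
      PP f' g' t.2.2.1
  refine Eq.mp (congrArg Kn ?_) k4
  funext w
  exact (PP_blk hf hg w K D hD).symm

/-- restriction to a residue -/
def res (N ε : ℕ) (f : List α → α → ZMod m) (X : List α) (b : α) : ZMod m :=
  if X.length % N = ε then f X b else 0

omit [Finite α] [NeZero m] in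
theorem res_sum {N : ℕ} (hN : 0 < N) (f : List α → α → ZMod m) (X : List α) (b : α) :
    ∑ ε ∈ Finset.range N, res N ε f X b = f X b := by
  unfold res
  rw [Finset.sum_ite_eq, if_pos (Finset.mem_range.2 (Nat.mod_lt _ hN))]

omit [Finite α] [NeZero m] in
theorem SS_res {N : ℕ} (hN : 0 < N) (f : List α → α → ZMod m) (X : List α) :
    SS f X = ∑ ε ∈ Finset.range N, SS (res N ε f) X := by
  induction X with
  | nil => exact (Finset.sum_eq_zero fun _ _ => rfl).symm
  | cons b X ih =>
    rw [SS, ih, ← res_sum hN f X b, ← Finset.sum_add_distrib]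
    rfl

omit [Finite α] [NeZero m] in
theorem PP_res {N : ℕ} (hN : 0 < N) (f g : List α → α → ZMod m) (X : List α) :
    PP f g X = ∑ ε ∈ Finset.range N, ∑ ε' ∈ Finset.range N, PP (res N ε f) (res N ε' g) X := by
  induction X with
  | nil => exact (Finset.sum_eq_zero fun _ _ => Finset.sum_eq_zero fun _ _ => rfl).symm
  | cons b X ih =>
    rw [PP, ih, SS_res hN f X, ← res_sum hN g X b, Finset.sum_mul_sum, Finset.sum_comm
      (f := fun i j => res N i g X b * SS (res N j f) X), ← Finset.sum_add_distrib]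
    refine Finset.sum_congr rfl fun ε _ => ?_
    rw [← Finset.sum_add_distrib]
    rfl

omit [Finite α] [NeZero m] in
theorem res_lv {N l c i₀ ε : ℕ} (hl : 2 ^ l ∣ N) {f : List α → α → ZMod m}
    (hf : ∀ X Y b, X.length % 2 ^ l = Y.length % 2 ^ l → X.take c = Y.take c → f X b = f Y b)
    (hp : ∀ k < N, k % N = (ε + i₀) % N → c ≤ k) {D : List α} (hD : N ∣ D.length + i₀) :
    Lv N i₀ (res N ε f) fun K' b => res N ε f (K' ++ D) b := by
  intro K' D' b hK' hD'
  have h1 : D'.length ≡ D.length [MOD N] := by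
    have h2 : D'.length + i₀ ≡ D.length + i₀ [MOD N] :=
      (Nat.modEq_zero_iff_dvd.2 hD').trans (Nat.modEq_zero_iff_dvd.2 hD).symm
    exact Nat.ModEq.add_right_cancel' i₀ h2
  have h3 : (K' ++ D').length ≡ (K' ++ D).length [MOD N] := by
    rw [List.length_append, List.length_append]
    exact Nat.ModEq.add_left _ h1
  show res N ε f (K' ++ D') b = res N ε f (K' ++ D) b
  unfold res
  have h4 : (K' ++ D').length % N = (K' ++ D).length % N := h3
  rw [h4]
  by_cases h5 : (K' ++ D).length % N = ε
  · rw [if_pos h5, if_pos h5]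
    have h6 : c ≤ K'.length := by
      apply hp _ hK'
      have h7 : (K' ++ D).length + i₀ ≡ K'.length [MOD N] := by
        rw [List.length_append, Nat.add_assoc]
        calc K'.length + (D.length + i₀) ≡ K'.length + 0 [MOD N] :=
              Nat.ModEq.add_left _ (Nat.modEq_zero_iff_dvd.2 hD)
          _ = K'.length := Nat.add_zero _
      have h8 : (K' ++ D).length + i₀ ≡ ε + i₀ [MOD N] := by
        apply Nat.ModEq.add_right
        rw [← h5]
        exact (Nat.mod_modEq _ _).symm
      exact h7.symm.trans h8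
    apply hf
    · exact Nat.ModEq.of_dvd hl h3
    · rw [List.take_append_of_le_length h6, List.take_append_of_le_length h6]
  · rw [if_neg h5, if_neg h5]

theorem ex_start {N c ε ε' : ℕ} (hc : 2 * c < N) (h1 : ε < N) (h2 : ε' < N) :
    ∃ i₀ < N, (∀ k < N, k % N = (ε + i₀) % N → c ≤ k) ∧
      ∀ k < N, k % N = (ε' + i₀) % N → c ≤ k := by
  have key : ∀ (e i p : ℕ), c ≤ p → p < N → (e + i = p ∨ e + i = p + N) →
      ∀ k < N, k % N = (e + i) % N → c ≤ k := by
    intro e i p hp hpN h k hk hke
    have h3 : (e + i) % N = p := by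
      rcases h with h | h
      · rw [h, Nat.mod_eq_of_lt hpN]
      · rw [h, Nat.add_mod_right, Nat.mod_eq_of_lt hpN]
    rw [h3, Nat.mod_eq_of_lt hk] at hke
    omega
  -- `i` with `e + i = c` or `e + i = c + N`
  have start : ∀ e < N, ∃ i < N, e + i = c ∨ e + i = c + N := by
    intro e he
    by_cases h : e ≤ c
    · exact ⟨c - e, by omega, Or.inl (by omega)⟩
    · exact ⟨c + N - e, by omega, Or.inr (by omega)⟩
  obtain ⟨i, hi, hi'⟩ := start ε h1
  obtain ⟨j, hj, hj'⟩ := start ε' h2
  -- place of `ε'` for the start `i`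
  by_cases hgood : (ε' + i < N ∧ c ≤ ε' + i) ∨ (N ≤ ε' + i ∧ ε' + i - N < N ∧ c ≤ ε' + i - N)
  · refine ⟨i, hi, key ε i c le_rfl (by omega) hi', ?_⟩
    rcases hgood with ⟨h3, h4⟩ | ⟨h3, h4, h5⟩
    · exact key ε' i (ε' + i) h4 h3 (Or.inl rfl)
    · exact key ε' i (ε' + i - N) h5 h4 (Or.inr (by omega))
  · refine ⟨j, hj, ?_, key ε' j c le_rfl (by omega) hj'⟩
    have h3 : (ε + j < N ∧ c ≤ ε + j) ∨ (N ≤ ε + j ∧ ε + j - N < N ∧ c ≤ ε + j - N) := by
      omega
    rcases h3 with ⟨h3, h4⟩ | ⟨h3, h4, h5⟩
    · exact key ε j (ε + j) h4 h3 (Or.inl rfl)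
    · exact key ε j (ε + j - N) h5 h4 (Or.inr (by omega))

end known

/-- **pair sums of windows from pair counts of blocks** -/
theorem pp_of (hL : ∀ q, H434.LocK (2 ^ q))
    (hC : ∀ (q : ℕ) (α : Type) [Finite α] (K : Par α (2 ^ q)) (γ : Blk α (2 ^ q)),
      KnZ fun w : List α => ct γ (ps K w))
    (h : PairStmt) : PPStmt := by
  intro m hm α _ l c f g hfg
  haveI : NeZero m := ⟨hm⟩
  set q := l + (c + 1) with hq
  set N := 2 ^ q with hNdef
  have hN0 : 0 < N := pow_pos (by norm_num) _
  have hc : 2 * c < N := by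
    have h1 : c < 2 ^ c := Nat.lt_two_pow_self
    have h2 : 2 ^ (c + 1) ≤ N := Nat.pow_le_pow_right (by norm_num) (by omega)
    rw [pow_succ] at h2
    omega
  have hl : 2 ^ l ∣ N := pow_dvd_pow 2 (by omega)
  apply kn_prefix _ N
  intro u hu
  have e1 : (fun w : List α => PP f g (u ++ w).reverse) = fun w =>
      ∑ ε ∈ Finset.range N, ∑ ε' ∈ Finset.range N,
        PP (res N ε f) (res N ε' g) (w.reverse ++ u.reverse) := by
    funext w
    rw [List.reverse_append]
    exact PP_res hN0 f g _
  rw [e1]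
  refine kn_sum _ fun ε hε => kn_sum _ fun ε' hε' => ?_
  obtain ⟨i₀, hi, p1, p2⟩ := ex_start hc (Finset.mem_range.1 hε) (Finset.mem_range.1 hε')
  have hlen : (u.reverse.take i₀).length = i₀ := by
    rw [List.length_take, List.length_reverse, hu, Nat.min_eq_left hi.le]
  have hD : N ∣ (u.reverse.drop i₀).length + i₀ := by
    rw [List.length_drop, List.length_reverse, hu, Nat.sub_add_cancel hi.le]
  have h1 := PPblk_known (q := q) hL hC h
    (res_lv hl (fun X Y b h1 h2 => (hfg X Y b h1 h2).1) p1 hD)
    (res_lv hl (fun X Y b h1 h2 => (hfg X Y b h1 h2).2) p2 hD)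
    ⟨u.reverse.take i₀, by rw [hlen]; exact hi⟩ (u.reverse.drop i₀) hD
  refine Eq.mp (congrArg Kn ?_) h1
  funext w
  show PP _ _ (w.reverse ++ (u.reverse.take i₀ ++ u.reverse.drop i₀)) = _
  rw [List.take_append_drop]

end Vale.Agent.P329.H672.C2
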