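import Vale.Agent.P329.H112.Mon
import Vale.Agent.P329.H559.C2.Lvl
import Vale.Agent.P329.H487.C2H
import Vale.Agent.P329.H433.Cl2
import Vale.Agent.P329.H433.Cl2All
import Vale.Agent.P329.H672.C2.P
import Vale.Agent.P329.H672.StB
import Vale.Agent.P329.H342.CtxA
import Vale.Agent.P329.H67.A

/-! Context products: groups of class two with clocks modulo powers of two, abelian groups with
clocks modulo all prime powers. -/

set_option linter.all false

namespace Vale.Agent.P329.H672.C2

open Vale.Agent.P329

theorem lock_pow {p : ℕ} (hp : p.Prime) (l : ℕ) : H434.LocK (p ^ l) := by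
  haveI : Fact p.Prime := ⟨hp⟩
  refine H434.LocK.of_ctx (p := p) (H434.CtxK.clock_p
    (fun K _ _ hK => H434.CtxK.of_core (H112.core_all p hp) K hK) ?_ l)
  refine IsPGroup.of_card (n := 1) ?_
  rw [Nat.card_congr (Multiplicative.toAdd : Multiplicative (ZMod p) ≃ ZMod p),
    Nat.card_zmod, pow_one]

theorem pp_all : H559.C2.PPStmt :=
  pp_of (fun q => lock_pow Nat.prime_two q) (fun q α _ K γ => H559.C2.kz_ct γ K)
    (H559.C2.pair_of H487.pairH)

/-- **context products in groups whose commutators are central, clocks modulo powers of two** -/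
theorem ctxK_class2 {G : Type} [Group G] [Finite G]
    (hc : ∀ a b c : G, a * b * a⁻¹ * b⁻¹ * c = c * (a * b * a⁻¹ * b⁻¹)) (l : ℕ) :
    H434.CtxK (2 ^ l) G :=
  H433.cl2_all (fun K _ _ hK => H434.CtxK.of_core (H112.core_all 2 Nat.prime_two) K hK)
    (H433.cl2_of pp_all) hc l

/-- **context products in abelian groups, clocks modulo prime powers** -/
theorem ctxK_abel {p : ℕ} (hp : p.Prime) {G : Type} [Group G] [Finite G]
    (hG : ∀ a b : G, a * b = b * a) (l : ℕ) : H434.CtxK (p ^ l) G := by
  haveI : Fact p.Prime := ⟨hp⟩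
  exact H342.ctxK_abel (StB.stB H67.stA (lock_pow hp)) hG l

end Vale.Agent.P329.H672.C2
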